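import Vale.Agent.P343.H744.Main
import Mathlib.Data.Set.Finite.List

/-!
Average-case form of the Sakoda-Sipser lower bound: small two-way deterministic automata err on a
positive fraction of the words of every large length.
-/

namespace Vale.Agent.P343.H736

open Vale.Agent.P343 Vale.Agent.P343.Box Vale.Agent.P343.H744

/-! ### Errors of an exact length -/

section Exact

variable {V Q : Type}

theorem acts_replicate_id (k : ℕ) (S : Set V) : acts (List.replicate k (idSym V)) S = S := by
  induction k with
  | zero => rfl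
  | succ k ih =>
    rw [List.replicate_succ]
    show acts (List.replicate k (idSym V)) ((idSym V).act S) = S
    rw [idSym_act, ih]

theorem acts_pad (m : ℕ) (w : List (Sym V)) : ∀ S : Set V,
    acts (w.flatMap fun a => a :: List.replicate m (idSym V)) S = acts w S := by
  induction w with
  | nil => intro S; rfl
  | cons a w ih =>
    intro S
    rw [List.flatMap_cons, acts_append1, ih]
    show acts w (acts (List.replicate m (idSym V)) (a.act S)) = _
    rw [acts_replicate_id]
    rfl

theorem length_pad (m : ℕ) (w : List (Sym V)) :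
    (w.flatMap fun a => a :: List.replicate m (idSym V)).length = w.length * (m + 1) := by
  induction w with
  | nil => simp
  | cons a w ih =>
    rw [List.flatMap_cons, List.length_append, ih, List.length_cons, List.length_replicate,
      List.length_cons]
    ring

variable [Fintype Q]

omit [Fintype Q] in
theorem word_replicate {P : Type} (g : P → Box Unit Q) (a : P) (k : ℕ) :
    word g (List.replicate k a) = g a ^ k := by
  induction k with
  | zero => simp [word]
  | succ k ih =>
    have h : List.replicate (k + 1) a = [a] ++ List.replicate k a := rfl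
    rw [h, word_append, ih, word_singleton, pow_succ']

/-- A box automaton with too few states errs on some word of each large length. -/
theorem exact_length {s0 f0 : V} {t : ℕ} (hLB : LB V s0 f0 t) (hQ : Fintype.card Q < t)
    (M : BA (Sym V) Q) : ∃ N0 : ℕ, ∀ N, N0 ≤ N → ∃ w : List (Sym V), w.length = N ∧
      ¬ (M.Acc w ↔ RLang s0 f0 w) := by
  classical
  by_contra hcon
  push Not at hcon
  obtain ⟨p, hp0, hp⟩ := exists_pow_idem (M.G (idSym V))
  -- a residue class
  obtain ⟨r, hr⟩ : ∃ r : ℕ, ∀ N0 : ℕ, ∃ N, N0 ≤ N ∧ N % p = r ∧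
      ∀ w : List (Sym V), w.length = N → (M.Acc w ↔ RLang s0 f0 w) := by
    by_contra h
    push Not at h
    choose b hb using h
    obtain ⟨N, hN, hN2⟩ := hcon (∑ i ∈ Finset.range p, b i)
    have h1 : N % p < p := Nat.mod_lt _ hp0
    have h2 : b (N % p) ≤ N :=
      (Finset.single_le_sum (f := b) (fun i _ => Nat.zero_le _) (Finset.mem_range.2 h1)).trans hN
    obtain ⟨w, hw, hw2⟩ := hb (N % p) N h2 rfl
    exact hw2.elim (fun h3 => h3.2 ((hN2 w hw).1 h3.1)) (fun h3 => h3.1 ((hN2 w hw).2 h3.2))
  set g := M.G (idSym V) with hg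
  have hidem : ∀ k : ℕ, (g ^ p) ^ (k + 1) = g ^ p := by
    intro k
    induction k with
    | zero => simp
    | succ k ih => rw [pow_succ, ih, hp]
  refine absurd (hLB Q ⟨fun a => M.G a * g ^ (p - 1), M.bl, g ^ p * g ^ r * M.br, M.start⟩ ?_)
    (not_le.2 hQ)
  intro w
  obtain ⟨N, hN, hNr, hN2⟩ := hr (w.length * p + p)
  obtain ⟨k, hk⟩ : ∃ k, N = w.length * p + ((k + 1) * p + r) := by
    have h1 : N = p * (N / p) + r := by rw [← hNr]; exact (Nat.div_add_mod N p).symm
    have h2 : w.length + 1 ≤ N / p := by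
      rw [Nat.le_div_iff_mul_le hp0]
      calc (w.length + 1) * p = w.length * p + p := by ring
        _ ≤ N := hN
    obtain ⟨k, hk⟩ := Nat.exists_eq_add_of_le h2
    refine ⟨k, ?_⟩
    rw [h1, hk]; ring
  have hlen : ((w.flatMap fun a => a :: List.replicate (p - 1) (idSym V)) ++
      List.replicate ((k + 1) * p + r) (idSym V)).length = N := by
    rw [List.length_append, length_pad, List.length_replicate, Nat.sub_add_cancel hp0, hk]
  have h1 := hN2 _ hlen
  have h2 : RLang s0 f0 ((w.flatMap fun a => a :: List.replicate (p - 1) (idSym V)) ++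
      List.replicate ((k + 1) * p + r) (idSym V)) ↔ RLang s0 f0 w := by
    unfold RLang
    rw [acts_append1, acts_replicate_id, acts_pad]
  rw [← h2, ← h1]
  have h3 : word M.G ((w.flatMap fun a => a :: List.replicate (p - 1) (idSym V)) ++
      List.replicate ((k + 1) * p + r) (idSym V)) =
      (w.map fun a => M.G a * g ^ (p - 1)).prod * (g ^ p * g ^ r) := by
    rw [word_append, word_flatMap, word_replicate, ← hg]
    congr 1
    · congr 1
      apply List.map_congr_left
      intro a _
      have h4 : a :: List.replicate (p - 1) (idSym V) = [a] ++ List.replicate (p - 1) (idSym V) :=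
        rfl
      rw [h4, word_append, word_singleton, word_replicate]
    · rw [pow_add, Nat.mul_comm, pow_mul, hidem]
  show (M.bl * (w.map fun a => M.G a * g ^ (p - 1)).prod * (g ^ p * g ^ r * M.br)) false M.start =
      some (Out.stop ()) ↔ (M.bl * word M.G _ * M.br) false M.start = some (Out.stop ())
  rw [h3]
  have h5 : M.bl * (w.map fun a => M.G a * g ^ (p - 1)).prod * (g ^ p * g ^ r * M.br) =
      M.bl * ((w.map fun a => M.G a * g ^ (p - 1)).prod * (g ^ p * g ^ r)) * M.br := by
    simp only [mul_assoc]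
  rw [h5]

instance finiteBA [Finite V] [Finite Q] : Finite (BA (Sym V) Q) := by
  apply Finite.of_injective (fun M : BA (Sym V) Q => (M.G, M.bl, M.br, M.start))
  rintro ⟨a, b, c, d⟩ ⟨a', b', c', d'⟩ h
  simp only [Prod.mk.injEq] at h
  obtain ⟨rfl, rfl, rfl, rfl⟩ := h
  rfl

/-- One length works for all box automata with too few states. -/
theorem uniform_length [Finite V] {s0 f0 : V} {t : ℕ} (hLB : LB V s0 f0 t)
    (hQ : Fintype.card Q < t) : ∃ l : ℕ, ∀ M : BA (Sym V) Q, ∃ w : List (Sym V), w.length = l ∧
      ¬ (M.Acc w ↔ RLang s0 f0 w) := by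
  choose N0 hN0 using fun M : BA (Sym V) Q => exact_length hLB hQ M
  obtain ⟨l, hl⟩ := (Set.finite_range N0).bddAbove
  exact ⟨l, fun M => hN0 M l (hl (Set.mem_range_self M))⟩

end Exact

/-! ### Errors on a positive fraction of the words -/

/-- Average-case transfer: a language which, after the word `R`, forgets the past and contains
the coded track language. -/
theorem avg_transfer {V α : Type} [Finite V] [Fintype α] {s0 f0 : V} {t : ℕ}
    (hLB : LB V s0 f0 t) (hα : 0 < Fintype.card α) (P : List α → Prop) (R : List α)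
    (enc : Sym V → List α) (L0 : ℕ) (hlen : ∀ a, (enc a).length = L0)
    (hP : ∀ (x : List α) (w : List (Sym V)), P ((x ++ R) ++ w.flatMap enc) ↔ RLang s0 f0 w)
    (s : ℕ) (hs : s < t) : ∃ ε : ℝ, 0 < ε ∧ ∃ N0 : ℕ, ∀ N, N0 ≤ N → ∀ B : TwoNFA α (Fin s),
      B.Deterministic → ε * (Fintype.card α : ℝ) ^ N ≤
        (({w : List α | w.length = N ∧ ¬ (P w ↔ B.Accepts w)}.ncard : ℕ) : ℝ) := by
  classical
  obtain ⟨l, hl⟩ := uniform_length (Q := Fin s) hLB (by rw [Fintype.card_fin]; exact hs)
  have hαR : (0 : ℝ) < Fintype.card α := by exact_mod_cast hα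
  refine ⟨((Fintype.card α : ℝ) ^ (l * L0 + R.length))⁻¹, by positivity, l * L0 + R.length, ?_⟩
  intro N hN B hB
  obtain ⟨m, rfl⟩ := Nat.exists_eq_add_of_le hN
  -- the error words
  have hx : ∀ x : List α, ∃ w : List (Sym V), w.length = l ∧
      ¬ (P ((x ++ R) ++ w.flatMap enc) ↔ B.Accepts ((x ++ R) ++ w.flatMap enc)) := by
    intro x
    obtain ⟨w, hw1, hw2⟩ := hl ⟨fun a => word (fun b => cell B (TapeSym.letter b)) (enc a),
      cell B TapeSym.leftEnd * word (fun b => cell B (TapeSym.letter b)) (x ++ R),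
      cell B TapeSym.rightEnd, B.start⟩
    refine ⟨w, hw1, ?_⟩
    rw [hP]
    intro h
    apply hw2
    rw [h, accepts_iff_box hB]
    have h2 : cell B TapeSym.leftEnd * word (fun b => cell B (TapeSym.letter b)) (x ++ R) *
        (w.map fun a => word (fun b => cell B (TapeSym.letter b)) (enc a)).prod *
        cell B TapeSym.rightEnd = cell B TapeSym.leftEnd *
        word (fun b => cell B (TapeSym.letter b)) ((x ++ R) ++ w.flatMap enc) *
        cell B TapeSym.rightEnd := by
      rw [← word_flatMap, word_append _ (x ++ R)]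
      simp only [mul_assoc]
    have h3 : ∀ X Y : Box Unit (Fin s), X = Y → (X false B.start = some (Out.stop ()) ↔
        Y false B.start = some (Out.stop ())) := by
      rintro X _ rfl
      exact Iff.rfl
    exact h3 _ _ h2
  choose W hW1 hW2 using hx
  have hWlen : ∀ x, ((W x).flatMap enc).length = l * L0 := by
    intro x
    have : ∀ w : List (Sym V), (w.flatMap enc).length = w.length * L0 := by
      intro w
      induction w with
      | nil => simp
      | cons a w ih =>
        rw [List.flatMap_cons, List.length_append, ih, hlen, List.length_cons]; ring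
    rw [this, hW1]
  let F : (Fin m → α) → List α := fun u => (List.ofFn u ++ R) ++ (W (List.ofFn u)).flatMap enc
  have hF : Function.Injective F := by
    intro u v huv
    have h0 : List.ofFn u ++ (R ++ (W (List.ofFn u)).flatMap enc) =
        List.ofFn v ++ (R ++ (W (List.ofFn v)).flatMap enc) := by
      rw [← List.append_assoc, ← List.append_assoc]
      exact huv
    have h1 := List.append_inj_left h0 (by simp)
    exact List.ofFn_injective h1
  have hsub : Set.range F ⊆ {w : List α | w.length = l * L0 + R.length + m ∧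
      ¬ (P w ↔ B.Accepts w)} := by
    rintro _ ⟨u, rfl⟩
    refine ⟨?_, hW2 _⟩
    show ((List.ofFn u ++ R) ++ (W (List.ofFn u)).flatMap enc).length = _
    rw [List.length_append, List.length_append, List.length_ofFn, hWlen]
    ring
  have hfin : {w : List α | w.length = l * L0 + R.length + m ∧ ¬ (P w ↔ B.Accepts w)}.Finite :=
    (List.finite_length_eq α (l * L0 + R.length + m)).subset fun w hw => hw.1
  have h1 : Fintype.card α ^ m ≤ {w : List α | w.length = l * L0 + R.length + m ∧
      ¬ (P w ↔ B.Accepts w)}.ncard := by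
    calc Fintype.card α ^ m = Nat.card (Fin m → α) := by
          rw [Nat.card_eq_fintype_card, Fintype.card_fun, Fintype.card_fin]
      _ = (Set.univ : Set (Fin m → α)).ncard := (Set.ncard_univ _).symm
      _ = (Set.range F).ncard := by
          rw [← Set.image_univ, Set.ncard_image_of_injective _ hF]
      _ ≤ _ := Set.ncard_le_ncard hsub hfin
  have h2 : ((Fintype.card α : ℝ) ^ (l * L0 + R.length))⁻¹ * (Fintype.card α : ℝ) ^ (l * L0 + R.length + m) =
      (Fintype.card α : ℝ) ^ m := by
    rw [pow_add _ (l * L0 + R.length) m, ← mul_assoc, inv_mul_cancel₀ (by positivity), one_mul]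
  rw [h2]
  exact_mod_cast h1

/-! ### The automaton with a reset word -/

section Reset

/-- States: a runner, two states for the reset word `bba`, the states of the given graph, and for
each of them the state after the first letter of the code word `ba`. -/
inductive RS (Q : Type) : Type
  | run : RS Q
  | g1 : RS Q
  | g2 : RS Q
  | ph : Q → RS Q
  | mid : Q → RS Q

variable {α Q : Type}

/-- The graph: `true` is coded by `a` and `false` by `ba`. -/
inductive Gr (δ : Bool → Q → Q → Prop) (a b : α) (q0 : Q) (x : α) : RS Q → RS Q → Prop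
  | run : Gr δ a b q0 x RS.run RS.run
  | g1 : x = b → Gr δ a b q0 x RS.run RS.g1
  | g2 : x = b → Gr δ a b q0 x RS.g1 RS.g2
  | go : x = a → Gr δ a b q0 x RS.g2 (RS.ph q0)
  | tt (u v : Q) : x = a → δ true u v → Gr δ a b q0 x (RS.ph u) (RS.ph v)
  | mid (u : Q) : x = b → Gr δ a b q0 x (RS.ph u) (RS.mid u)
  | ff (u v : Q) : x = a → δ false u v → Gr δ a b q0 x (RS.mid u) (RS.ph v)

/-- The code of the two letters. -/
def phi (a b : α) : Bool → List α
  | true => [a]
  | false => [b, a]

variable {δ : Bool → Q → Q → Prop} {a b : α} {q0 : Q}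

theorem reach_phi_ph (hab : a ≠ b) (u : List Bool) : ∀ (q : Q) (y : RS Q),
    Reach (Gr δ a b q0) (u.flatMap (phi a b)) (RS.ph q) y ↔
      ∃ v, y = RS.ph v ∧ Reach δ u q v := by
  induction u with
  | nil =>
    intro q y
    constructor
    · intro h
      exact ⟨q, h, rfl⟩
    · rintro ⟨v, rfl, h⟩
      have h1 : v = q := h
      rw [h1]
      rfl
  | cons c u ih =>
    intro q y
    cases c with
    | true =>
      show (∃ r, Gr δ a b q0 a (RS.ph q) r ∧
        Reach (Gr δ a b q0) (u.flatMap (phi a b)) r y) ↔ _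
      constructor
      · rintro ⟨r, h1, h2⟩
        cases h1 with
        | tt _ v _ h3 =>
          obtain ⟨v', rfl, h4⟩ := (ih v y).1 h2
          exact ⟨v', rfl, v, h3, h4⟩
        | mid _ h3 => exact absurd h3 hab
      · rintro ⟨v, rfl, z, h1, h2⟩
        exact ⟨RS.ph z, Gr.tt q z rfl h1, (ih z _).2 ⟨v, rfl, h2⟩⟩
    | false =>
      show (∃ r, Gr δ a b q0 b (RS.ph q) r ∧ ∃ r', Gr δ a b q0 a r r' ∧
        Reach (Gr δ a b q0) (u.flatMap (phi a b)) r' y) ↔ _
      constructor
      · rintro ⟨r, h1, r', h2, h3⟩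
        cases h1 with
        | tt _ v h4 _ => exact absurd h4.symm hab
        | mid _ _ =>
          cases h2 with
          | ff _ v _ h4 =>
            obtain ⟨v', rfl, h5⟩ := (ih v y).1 h3
            exact ⟨v', rfl, v, h4, h5⟩
      · rintro ⟨v, rfl, z, h1, h2⟩
        exact ⟨RS.mid q, Gr.mid q rfl, RS.ph z, Gr.ff q z rfl h1, (ih z _).2 ⟨v, rfl, h2⟩⟩

/-- Code words do not contain the reset word. -/
theorem reach_phi_run (hab : a ≠ b) (u : List Bool) (y : RS Q)
    (h : Reach (Gr δ a b q0) (u.flatMap (phi a b)) RS.run y) : y = RS.run := by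
  induction u with
  | nil => exact h
  | cons c u ih =>
    cases c with
    | true =>
      obtain ⟨r, h1, h2⟩ : ∃ r, Gr δ a b q0 a RS.run r ∧
        Reach (Gr δ a b q0) (u.flatMap (phi a b)) r y := h
      cases h1 with
      | run => exact ih h2
      | g1 h3 => exact absurd h3 hab
    | false =>
      obtain ⟨r, h1, r', h2, h3⟩ : ∃ r, Gr δ a b q0 b RS.run r ∧ ∃ r', Gr δ a b q0 a r r' ∧
        Reach (Gr δ a b q0) (u.flatMap (phi a b)) r' y := h
      cases h1 with
      | run =>
        cases h2 with
        | run => exact ih h3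
        | g1 h4 => exact absurd h4 hab
      | g1 _ =>
        cases h2 with
        | g2 h4 => exact absurd h4 hab

theorem reach_run (w : List α) : Reach (Gr δ a b q0) w RS.run RS.run := by
  induction w with
  | nil => rfl
  | cons c w ih => exact ⟨RS.run, Gr.run, ih⟩

/-- The reset. -/
theorem reach_reset (hab : a ≠ b) (x : List α) (u : List Bool) (v : Q) :
    Reach (Gr δ a b q0) ((x ++ [b, b, a]) ++ u.flatMap (phi a b)) RS.run (RS.ph v) ↔
      Reach δ u q0 v := by
  rw [reach_append]
  simp only [reach_append _ x]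
  constructor
  · rintro ⟨r, ⟨r0, _, r1, h1, r2, h2, r3, h3, h4⟩, h5⟩
    have h6 : r = r3 := h4
    subst h6
    have h7 : r = RS.run ∨ r = RS.ph q0 := by
      cases h1 with
      | run =>
        cases h2 with
        | run =>
          cases h3 with
          | run => exact Or.inl rfl
          | g1 h => exact absurd h hab
        | g1 _ =>
          cases h3 with
          | g2 h => exact absurd h hab
      | g1 _ =>
        cases h2 with
        | g2 _ =>
          cases h3 with
          | go _ => exact Or.inr rfl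
      | g2 _ =>
        cases h2 with
        | go h => exact absurd h.symm hab
      | go h => exact absurd h.symm hab
      | tt _ _ h _ => exact absurd h.symm hab
      | mid _ _ =>
        cases h2 with
        | ff _ _ h _ => exact absurd h.symm hab
      | ff _ _ h _ => exact absurd h.symm hab
    rcases h7 with rfl | rfl
    · have := reach_phi_run hab u _ h5
      cases this
    · obtain ⟨v', h8, h9⟩ := (reach_phi_ph hab u q0 _).1 h5
      cases h8
      exact h9
  · intro h
    exact ⟨RS.ph q0, ⟨RS.run, reach_run x, RS.g1, Gr.g1 rfl, RS.g2, Gr.g2 rfl, RS.ph q0,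
      Gr.go rfl, rfl⟩, (reach_phi_ph hab u q0 _).2 ⟨v, rfl, h⟩⟩

/-- The number of states. -/
def toOpt : RS Q → Option (Option (Option (Q ⊕ Q)))
  | RS.run => none
  | RS.g1 => some none
  | RS.g2 => some (some none)
  | RS.ph q => some (some (some (Sum.inl q)))
  | RS.mid q => some (some (some (Sum.inr q)))

theorem toOpt_injective : Function.Injective (toOpt : RS Q → _) := by
  intro x y h
  cases x <;> cases y <;> simp_all [toOpt]

end Reset

/-! ### Words of equal length -/

section Pad

variable {p : ℕ} {α : Type}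

theorem reach_true (m : ℕ) : ∀ q q' : Pl p, Reach (dl p) (List.replicate m true) q q' ↔
    q' = rot (m : ZMod p) (m : ZMod 5) q := by
  induction m with
  | zero =>
    intro q q'
    have h : rot ((0 : ℕ) : ZMod p) ((0 : ℕ) : ZMod 5) q = q := by
      cases q <;> simp [rot]
    rw [h]
    exact Iff.rfl
  | succ m ih =>
    intro q q'
    have h : rot ((m + 1 : ℕ) : ZMod p) ((m + 1 : ℕ) : ZMod 5) q =
        rot (m : ZMod p) (m : ZMod 5) (rot 1 1 q) := by
      cases q <;> simp [rot, add_assoc, add_comm (1 : ZMod p), add_comm (1 : ZMod 5)]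
    rw [List.replicate_succ, h]
    constructor
    · rintro ⟨r, h1, h2⟩
      have h3 : r = rot 1 1 q := h1
      rw [← h3]
      exact (ih r q').1 h2
    · intro h1
      exact ⟨rot 1 1 q, rfl, (ih _ _).2 h1⟩

theorem reach_false (a : ℕ) : ∀ (w : ZMod p) (q : Pl p),
    Reach (dl p) (List.replicate (2 * a) false) (Sum.inl w) q ↔ q = Sum.inl w := by
  induction a with
  | zero => intro w q; exact Iff.rfl
  | succ a ih =>
    intro w q
    have h0 : 2 * (a + 1) = 2 * a + 1 + 1 := by ring
    rw [h0, List.replicate_succ, List.replicate_succ]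
    have h1 : ∀ q' : Pl p, (∃ r, dl p false (Sum.inl w) r ∧ dl p false r q') ↔ q' = Sum.inl w := by
      intro q'
      show (∃ r, Hc 0 (Sum.inl w) r ∧ Hc 0 r q') ↔ _
      by_cases hw : w = 0
      · subst hw
        simp only [hc_self, exists_eq_left, hc_zero]
      · simp only [hc_ne hw, exists_eq_left]
    constructor
    · rintro ⟨r, h2, r', h3, h4⟩
      have h5 := (h1 r').1 ⟨r, h2, h3⟩
      subst h5
      exact (ih w q).1 h4
    · intro h2
      obtain ⟨r, h3, h4⟩ := (h1 (Sum.inl w)).2 rfl
      exact ⟨r, h3, Sum.inl w, h4, (ih w q).2 h2⟩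

theorem length_true (a b : α) (k : ℕ) :
    ((List.replicate k true).flatMap (phi a b)).length = k := by
  induction k with
  | zero => rfl
  | succ k ih =>
    rw [List.replicate_succ, List.flatMap_cons, List.length_append, ih]
    show 1 + k = k + 1
    ring

theorem length_false (a b : α) (k : ℕ) :
    ((List.replicate k false).flatMap (phi a b)).length = 2 * k := by
  induction k with
  | zero => rfl
  | succ k ih =>
    rw [List.replicate_succ, List.flatMap_cons, List.length_append, ih]
    show 2 + 2 * k = 2 * (k + 1)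
    ring

/-- Identity words of every large length. -/
theorem exists_pad (a b : α) (hodd : p % 2 = 1) (L : ℕ) (hL : 15 * p ≤ L) :
    ∃ z : List Bool, (z.flatMap (phi a b)).length = L ∧
      ∀ (w : ZMod p) (q : Pl p), Reach (dl p) z (Sum.inl w) q ↔ q = Sum.inl w := by
  obtain ⟨m, hm, hm2⟩ : ∃ m, m ≤ 3 ∧ (5 * p * m) % 4 = L % 4 := by
    have h1 : p % 4 = 1 ∨ p % 4 = 3 := by omega
    rcases h1 with h1 | h1
    · refine ⟨L % 4, by omega, ?_⟩
      obtain ⟨k, hk⟩ : ∃ k, p = 4 * k + 1 := ⟨p / 4, by omega⟩
      have h2 : 5 * p * (L % 4) = 4 * (5 * k * (L % 4) + L % 4) + L % 4 := by rw [hk]; ring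
      omega
    · refine ⟨(3 * L) % 4, by omega, ?_⟩
      obtain ⟨k, hk⟩ : ∃ k, p = 4 * k + 3 := ⟨p / 4, by omega⟩
      have h2 : 5 * p * ((3 * L) % 4) = 4 * (5 * k * ((3 * L) % 4) + 3 * ((3 * L) % 4)) +
          3 * ((3 * L) % 4) := by rw [hk]; ring
      omega
  have hm3 : 5 * p * m ≤ L := by
    calc 5 * p * m ≤ 5 * p * 3 := Nat.mul_le_mul_left _ hm
      _ = 15 * p := by ring
      _ ≤ L := hL
  refine ⟨List.replicate (2 * ((L - 5 * p * m) / 4)) false ++ List.replicate (5 * p * m) true,
    ?_, ?_⟩
  · rw [List.flatMap_append, List.length_append, length_false, length_true]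
    omega
  · intro w q
    rw [reach_append]
    have h1 : ∀ q : Pl p, rot ((5 * p * m : ℕ) : ZMod p) ((5 * p * m : ℕ) : ZMod 5) q = q := by
      intro q
      have h2 : ((5 * p * m : ℕ) : ZMod p) = 0 := by
        rw [ZMod.natCast_eq_zero_iff]; exact ⟨5 * m, by ring⟩
      have h3 : ((5 * p * m : ℕ) : ZMod 5) = 0 := by
        rw [ZMod.natCast_eq_zero_iff]; exact ⟨p * m, by ring⟩
      rw [h2, h3]
      cases q <;> simp [rot]
    constructor
    · rintro ⟨r, h2, h3⟩
      rw [reach_false] at h2
      rw [reach_true, h1, h2] at h3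
      exact h3
    · intro h2
      refine ⟨Sum.inl w, (reach_false _ _ _).2 rfl, ?_⟩
      rw [reach_true, h1]
      exact h2

/-- Realising words of a prescribed large length. -/
theorem real_length {X : Type} {ι : X → ZMod p} (a b : α) (hodd : p % 2 = 1) {R : X → X → Prop}
    (h : Real (dl p) (fun x => Sum.inl (ι x)) R) : ∃ L1 : ℕ, ∀ L, L1 ≤ L → ∃ u : List Bool,
      (u.flatMap (phi a b)).length = L ∧
        ∀ x q, Reach (dl p) u (Sum.inl (ι x)) q ↔ ∃ y, q = Sum.inl (ι y) ∧ R x y := by
  obtain ⟨u, hu⟩ := h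
  refine ⟨(u.flatMap (phi a b)).length + 15 * p, fun L hL => ?_⟩
  obtain ⟨z, hz1, hz2⟩ := exists_pad a b hodd (L - (u.flatMap (phi a b)).length) (by omega)
  refine ⟨u ++ z, by rw [List.flatMap_append, List.length_append, hz1]; omega, fun x q => ?_⟩
  rw [reach_append]
  constructor
  · rintro ⟨r, h1, h2⟩
    obtain ⟨y, rfl, h3⟩ := (hu x r).1 h1
    exact ⟨y, (hz2 _ _).1 h2, h3⟩
  · rintro ⟨y, rfl, h3⟩
    exact ⟨Sum.inl (ι y), (hu x _).2 ⟨y, rfl, h3⟩, (hz2 _ _).2 rfl⟩

end Pad

/-- Over every finite alphabet with at least two letters there are one-way nondeterministic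
automata with `n` states such that every two-way deterministic automaton with exponentially few
(in `n`) states errs on a positive fraction of the words of every large length. -/
theorem avg_lower (α : Type) [Fintype α] (hα : 2 ≤ Fintype.card α) (n j : ℕ)
    (hn : 34 * j + 60 ≤ n) :
    ∃ A : TwoNFA α (Fin n), A.OneWay ∧ ∀ s : ℕ, s < 2 ^ j → ∃ ε : ℝ, 0 < ε ∧ ∃ N0 : ℕ,
      ∀ N, N0 ≤ N → ∀ B : TwoNFA α (Fin s), B.Deterministic →
        ε * (Fintype.card α : ℝ) ^ N ≤
          (({w : List α | w.length = N ∧ ¬ (A.Accepts w ↔ B.Accepts w)}.ncard : ℕ) : ℝ) := by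
  classical
  obtain ⟨a, b, hab⟩ := Fintype.exists_pair_of_one_lt_card (α := α) (by omega)
  obtain ⟨p, hp, hodd, hp1, hp2⟩ : ∃ p : ℕ, p.Coprime 5 ∧ p % 2 = 1 ∧ 17 * j + 20 ≤ p ∧
      p ≤ 17 * j + 23 := by
    have h5 : Nat.Prime 5 := by norm_num
    obtain ⟨p0, h1, h2, h3⟩ : ∃ p0, 17 * j + 20 ≤ p0 ∧ p0 ≤ 17 * j + 21 ∧ p0 % 2 = 1 := by
      by_cases h : (17 * j + 20) % 2 = 1
      · exact ⟨_, le_rfl, by omega, h⟩
      · exact ⟨17 * j + 21, by omega, le_rfl, by omega⟩
    by_cases h : 5 ∣ p0
    · refine ⟨p0 + 2, ?_, by omega, by omega, by omega⟩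
      exact ((Nat.Prime.coprime_iff_not_dvd h5).2 (by omega)).symm
    · exact ⟨p0, ((Nat.Prime.coprime_iff_not_dvd h5).2 h).symm, h3, h1, by omega⟩
  have : NeZero p := ⟨by omega⟩
  obtain ⟨g⟩ : Nonempty (Option (Fin (17 * j + 19)) ↪ ZMod p) := by
    apply Function.Embedding.nonempty_of_card_le
    rw [Fintype.card_option, Fintype.card_fin, ZMod.card]
    omega
  -- words of one length for all letters
  have hlet := fun c => real_length (ι := fun v => g (some v)) a b hodd (letters hp g c)
  choose L1 hL1 using hlet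
  obtain ⟨L0, hL0⟩ := (Set.finite_range L1).bddAbove
  have hL0' : ∀ c, L1 c ≤ L0 := fun c => hL0 (Set.mem_range_self c)
  choose encB hlenB hencB using fun c => hL1 c L0 (hL0' c)
  obtain ⟨e⟩ : Nonempty (Option (Option (Option (Option (Pl p ⊕ Pl p)))) ↪ Fin n) := by
    apply Function.Embedding.nonempty_of_card_le
    rw [Fintype.card_option, Fintype.card_option, Fintype.card_option, Fintype.card_option,
      Fintype.card_sum, Fintype.card_sum, ZMod.card, ZMod.card, Fintype.card_fin]
    omega
  have hne : (⟨0, by omega⟩ : Fin (17 * j + 19)) ≠ ⟨1, by omega⟩ := by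
    intro h
    have h1 := congrArg Fin.val h
    simp at h1
  have hLB := lin_LB lin_words (j + 1) (Fin (17 * j + 19)) ⟨0, by omega⟩ ⟨1, by omega⟩ hne
    (by rw [Fintype.card_fin]; omega)
  rw [Nat.add_sub_cancel] at hLB
  set q0 : Pl p := Sum.inl (g (some ⟨0, by omega⟩)) with hq0
  set q1 : Pl p := Sum.inl (g (some ⟨1, by omega⟩)) with hq1
  have he : Function.Injective (fun o : Option (RS (Pl p)) => e (o.map toOpt)) :=
    e.injective.comp (Option.map_injective toOpt_injective)
  have hA : ∀ w, (aut (Gr (dl p) a b q0) RS.run (RS.ph q1)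
      (fun o : Option (RS (Pl p)) => e (o.map toOpt))).Accepts w ↔
      Reach (Gr (dl p) a b q0) w RS.run (RS.ph q1) := fun w => aut_accepts he w
  have hP : ∀ (x : List α) (w : List (Sym (Fin (17 * j + 19)))),
      (aut (Gr (dl p) a b q0) RS.run (RS.ph q1)
        (fun o : Option (RS (Pl p)) => e (o.map toOpt))).Accepts
        ((x ++ [b, b, a]) ++ w.flatMap fun c => (encB c).flatMap (phi a b)) ↔
        RLang ⟨0, by omega⟩ ⟨1, by omega⟩ w := by
    intro x w
    rw [hA, ← List.flatMap_assoc, reach_reset hab, hq0,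
      coding (ι := fun v => (Sum.inl (g (some v)) : Pl p)) hencB w]
    constructor
    · rintro ⟨y, h1, h2⟩
      have h3 := Option.some_injective _ (g.injective (Sum.inl_injective h1))
      rw [← h3] at h2
      exact h2
    · intro h1
      exact ⟨_, rfl, h1⟩
  exact ⟨_, aut_oneWay _ _ _ _, fun s hs => avg_transfer hLB (by omega) _ [b, b, a]
    (fun c => (encB c).flatMap (phi a b)) L0 hlenB hP s hs⟩

end Vale.Agent.P343.H736
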